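import Mathlib
import Vale.Agent.Lib.P031.Soft

open Filter Topology
open Vale.Agent.Lib.P031

namespace Vale.Agent.Results.P031.A_soft

theorem result :
    (∀ c : ℝ, 1 < c → ∃ u : ℕ → ℝ, Tendsto u atTop atTop ∧
      Tendsto (fun j => (V (c * u j) : ℝ) / V (u j)) atTop (𝓝 c)) ∧
    (∀ c L : ℝ, 1 < c → Tendsto (fun x : ℝ => (V (c * x) : ℝ) / V x) atTop (𝓝 L) → L = c) ∧
    (∀ a b : ℝ, 1 < a → 1 < b → (∀ m n : ℕ, 0 < m → a ^ m ≠ b ^ n) →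
      Tendsto (fun x : ℝ => (V (a * x) : ℝ) / V x) atTop (𝓝 a) →
      Tendsto (fun x : ℝ => (V (b * x) : ℝ) / V x) atTop (𝓝 b) →
      ∀ c : ℝ, 1 < c → Tendsto (fun x : ℝ => (V (c * x) : ℝ) / V x) atTop (𝓝 c)) ∧
    ((Tendsto (fun x : ℝ => (V (2 * x) : ℝ) / V x) atTop (𝓝 2) ∧
      Tendsto (fun x : ℝ => (V (3 * x) : ℝ) / V x) atTop (𝓝 3)) ↔
      ∀ c : ℝ, 1 < c → Tendsto (fun x : ℝ => (V (c * x) : ℝ) / V x) atTop (𝓝 c)) ∧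
    (Tendsto (fun x : ℝ => (V (2 * x) : ℝ) / V x) atTop (𝓝 2) ↔
      Tendsto (fun x : ℝ => (B x : ℝ) / V x) atTop (𝓝 (1 / 2))) ∧
    (∀ x : ℝ, V x + V x ≤ V (2 * x) + V (x / 2)) :=
  ⟨fun _ hc => exists_sequence hc,
   fun _ _ hc hL => limit_eq hc hL,
   fun _ _ ha hb hab hQa hQb _ hc => all_of_two ha hb hab hQa hQb hc,
   ⟨fun h _ hc => all_of_two_three h.1 h.2 hc,
    fun h => ⟨h 2 (by norm_num), h 3 (by norm_num)⟩⟩,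
   two_iff_half,
   dyadic_mono⟩

end Vale.Agent.Results.P031.A_soft
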